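import Vale.Agent.P260.R2.H716.Main
import Vale.Agent.P260.R3.H283.Act

/-!
# P260: equivariant maps for families of homeomorphisms, one dense orbit
-/

open Set Topology
open Vale.Agent.P260.H283

namespace Vale.Agent.P260.R2.H716

section Fam

variable {n : ℕ} {M N : Type*} [TopologicalSpace M] [T2Space M] [CompactSpace M]
  [ConnectedSpace M] [ChartedSpace (EuclideanSpace ℝ (Fin n)) M] [TopologicalSpace N] [T2Space N]
  [CompactSpace N] [ChartedSpace (EuclideanSpace ℝ (Fin n)) N]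

omit [T2Space M] [CompactSpace M] [ConnectedSpace M] [ChartedSpace (EuclideanSpace ℝ (Fin n)) M]
  [T2Space N] [CompactSpace N] [ChartedSpace (EuclideanSpace ℝ (Fin n)) N] in
theorem fam_fibre (f : C(M, N)) (a : M ≃ₜ M) (b : N ≃ₜ N) (he : ∀ x, f (a x) = b (f x)) (y : N) :
    f ⁻¹' {b y} = a '' (f ⁻¹' {y}) := by
  ext x
  constructor
  · intro hx
    have hx' : f x = b y := hx
    refine ⟨a.symm x, ?_, a.apply_symm_apply x⟩
    show f (a.symm x) = y
    apply b.injective
    rw [← he, a.apply_symm_apply, hx']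
  · rintro ⟨z, hz, rfl⟩
    have hz' : f z = y := hz
    show f (a z) = b y
    rw [he, hz']

omit [T2Space M] [CompactSpace M] [ConnectedSpace M] [ChartedSpace (EuclideanSpace ℝ (Fin n)) M]
  [T2Space N] [CompactSpace N] [ChartedSpace (EuclideanSpace ℝ (Fin n)) N] in
theorem fam_conn (f : C(M, N)) (a : M ≃ₜ M) (b : N ≃ₜ N) (he : ∀ x, f (a x) = b (f x)) {y : N}
    (hy : IsPreconnected (f ⁻¹' {y})) : IsPreconnected (f ⁻¹' {b y}) := by
  rw [fam_fibre f a b he]
  exact hy.image _ a.continuous.continuousOn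

/-- A point with a dense orbit in a connected fibre. -/
theorem fam_orbit (hn : 0 < n) (f : C(M, N)) (g : C(N, M))
    (hfg : (f.comp g).Homotopic (ContinuousMap.id N)) {G : Type*} (a : G → M ≃ₜ M)
    (b : G → N ≃ₜ N) (he : ∀ s x, f (a s x) = b s (f x)) {x₀ : M}
    (hd : Dense (range fun s => a s x₀)) (hx₀ : IsPreconnected (f ⁻¹' {f x₀})) (y : N) :
    IsConnected (f ⁻¹' {y}) := by
  refine top_dense hn f g hfg (hd.mono ?_) y
  rintro _ ⟨s, rfl⟩
  show IsPreconnected (f ⁻¹' {f (a s x₀)})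
  rw [he]
  exact fam_conn f (a s) (b s) (he s) hx₀

/-- A point with a dense orbit over which the fibre is connected or has at most two points. -/
theorem fam_orbit_two (hn : 0 < n) (f : C(M, N)) (g : C(N, M))
    (hfg : (f.comp g).Homotopic (ContinuousMap.id N)) {G : Type*} (a : G → M ≃ₜ M)
    (b : G → N ≃ₜ N) (he : ∀ s x, f (a s x) = b s (f x))
    (hfib : ∀ y, IsPreconnected (f ⁻¹' {y}) ∨ IsTotallyDisconnected (f ⁻¹' {y})) {y₀ : N}
    (hd : Dense (range fun s => b s y₀))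
    (hy₀ : IsPreconnected (f ⁻¹' {y₀}) ∨ (f ⁻¹' {y₀}).encard ≤ 2) (y : N) :
    IsConnected (f ⁻¹' {y}) := by
  obtain ⟨x, hx⟩ := top_surj (n := n) hn f g hfg y
  refine ⟨⟨x, hx⟩, ?_⟩
  by_contra hny
  obtain ⟨V, hVo, hVne, -, hV⟩ := top_local (n := n) hn f g hfg (W := univ) Filter.univ_mem
    (fun z _ => hfib z) hny
  obtain ⟨z, hzV, ⟨s, rfl⟩⟩ := hd.inter_open_nonempty V hVo hVne
  obtain ⟨h1, h2⟩ := hV _ hzV
  rcases hy₀ with h | h
  · exact h1 (fam_conn f (a s) (b s) (he s) h)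
  · have h3 : (f ⁻¹' {b s y₀}).encard ≤ 2 := by
      rw [fam_fibre f (a s) (b s) (he s)]
      exact (Set.encard_image_le _ _).trans h
    exact absurd (h2.trans h3) (by norm_num)

end Fam

end Vale.Agent.P260.R2.H716
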