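import Vale.Agent.P260.H283.Top
import Vale.Agent.P330.Brouwer
import Mathlib.Topology.Homotopy.Lifting
import Mathlib.MeasureTheory.Measure.Hausdorff

/-!
# P260: maps of degree one modulo two, uniform limits, and fibres which are not connected
-/

open Metric Set Topology TopologicalSpace
open Vale.Agent.P239.M Vale.Agent.P239.M.Fill
open Vale.Agent.P260.H283

namespace Vale.Agent.P260.R2.H716

section Deg

variable {n : ℕ} {M N : Type*} [MetricSpace M] [CompactSpace M] [MetricSpace N] [CompactSpace N]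
  [ChartedSpace (EuclideanSpace ℝ (Fin n)) N]

omit [CompactSpace M] [CompactSpace N] [ChartedSpace (EuclideanSpace ℝ (Fin n)) N] in
/-- There are small cycles on the source whose images have degree one modulo two. -/
def DegOne (n : ℕ) {M N : Type*} [MetricSpace M] [MetricSpace N] (f : M → N) : Prop :=
  ∀ β' : (Fin n → ℝ) → N, IsOpenEmbedding β' → ∀ δ : ℝ, 0 < δ →
    ∃ c : Ch (ZMod 2) M, bd c = 0 ∧ Sup (fun l => l.length = n + 1 ∧ Sm δ l) c ∧
      ∀ y ∈ β' '' Q n 2, dg β' (pf f c) y = 1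

omit [CompactSpace M] in
theorem degOne_of_section (hn : 0 < n) (f : C(M, N)) (g : C(N, M))
    (hfg : (f.comp g).Homotopic (ContinuousMap.id N)) : DegOne n f :=
  fun _ hβ' _ hδ => total_one hn f g hfg hβ' hδ

omit [CompactSpace N] [ChartedSpace (EuclideanSpace ℝ (Fin n)) N] in
/-- Uniform limits of maps of degree one modulo two have degree one modulo two. -/
theorem degOne_of_near (f : C(M, N))
    (H : ∀ ε : ℝ, 0 < ε → ∃ h : C(M, N), DegOne n h ∧ ∀ x, dist (f x) (h x) < ε) :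
    DegOne n f := by
  intro β' hβ' δ hδ
  obtain ⟨k1, hk1, hb1⟩ := dg_bd hβ'
  have hk3 : 0 < k1 / 3 := by linarith
  obtain ⟨h, hh, hclose⟩ := H (k1 / 3) hk3
  obtain ⟨δ1, hδ1, hsm⟩ := small_map f.continuous hk3
  obtain ⟨c, hc0, hcs, hc1⟩ := hh β' hβ' _ (lt_min hδ hδ1)
  refine ⟨c, hc0, Sup.mono (fun l hl => ⟨hl.1, sm_mono (min_le_left _ _) hl.2⟩) hcs, ?_⟩
  intro y hy
  have e1 : pf f c = pf h c + bd (pr h f c) := by
    have := bd_pr (k := ZMod 2) h f c
    rw [hc0, map_zero, add_zero] at this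
    rw [this]
    abel
  have hs : Sup (Sm k1) (pr h f c) := by
    refine sup_lin' _ _ fun l hl => ?_
    rw [pr_single, one_smul]
    refine sup_mono' (fun m hm => ?_) (sup_prL' _ _ l)
    have hlf := hsm l (sm_mono (min_le_right _ _) (hcs l hl).2)
    intro y hy z hz
    obtain ⟨x, hx, hyx⟩ := hm.2 y hy
    obtain ⟨x', hx', hzx⟩ := hm.2 z hz
    have hd : dist (f x) (f x') < k1 / 3 :=
      hlf _ (List.mem_map.2 ⟨x, hx, rfl⟩) _ (List.mem_map.2 ⟨x', hx', rfl⟩)
    have h1 := hclose x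
    have h2 := hclose x'
    rcases hyx with rfl | rfl <;> rcases hzx with rfl | rfl
    · have h3 := dist_triangle4 (h x) (f x) (f x') (h x')
      rw [dist_comm (h x) (f x)] at h3
      linarith
    · have h3 := dist_triangle (h x) (f x) (f x')
      rw [dist_comm (h x) (f x)] at h3
      linarith
    · have h3 := dist_triangle (f x) (f x') (h x')
      linarith
    · linarith
  rw [e1, inv_dg_add, hc1 y hy, (hb1 _ hs y (q_mono (by norm_num) β' hy)).1, add_zero]

omit [CompactSpace N] in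
/-- A map onto a closed manifold of degree one modulo two is surjective. -/
theorem surj (f : C(M, N)) (hf : DegOne n f) : Function.Surjective f := by
  intro y
  by_contra hy
  have hy' : y ∉ range f := fun ⟨x, hx⟩ => hy ⟨x, hx⟩
  obtain ⟨β', hβ', h0, -⟩ := exists_chart (n := n) y Filter.univ_mem
  have hcl : IsClosed (range f) := (isCompact_range f.continuous).isClosed
  obtain ⟨t, ht, hb⟩ := Metric.mem_nhds_iff.1 (hcl.isOpen_compl.mem_nhds hy')
  obtain ⟨k, hk, hfar⟩ := dg_far hβ' ht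
  obtain ⟨δ, hδ, hsm⟩ := small_map f.continuous hk
  obtain ⟨c, hc0, hcs, hc1⟩ := hf β' hβ' _ hδ
  have e1 := hc1 y ⟨0, mem_closedBall_self (by norm_num), h0⟩
  have e2 : dg β' (pf f c) y = 0 := by
    refine (hfar _ y ⟨0, mem_closedBall_self (by norm_num), h0⟩ (Sup.pf f ?_)).1
    intro l hl
    refine ⟨hsm l (hcs l hl).2, ?_⟩
    have hne : l ≠ [] := by
      intro h
      have := (hcs l hl).1
      rw [h] at this
      simp at this
    obtain ⟨w, hw⟩ := List.exists_mem_of_ne_nil l hne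
    refine ⟨f w, List.mem_map.2 ⟨w, hw, rfl⟩, ?_⟩
    by_contra hlt
    rw [not_le] at hlt
    exact hb (mem_ball.2 (by rw [dist_comm]; exact hlt)) ⟨w, rfl⟩
  rw [e1] at e2
  exact one_ne_zero e2

omit [CompactSpace N] in
/-- One of the two sheets is onto a neighbourhood. -/
theorem stepA (hn : 0 < n) (f : C(M, N)) (hf : DegOne n f) {U₁ U₂ : Set M} (h₁ : IsCompact U₁)
    (h₂ : IsCompact U₂) (hd : Disjoint U₁ U₂) {y : N} {ρ : ℝ} (hρ : 0 < ρ)
    (hcov : ∀ x, dist (f x) y < ρ → x ∈ U₁ ∨ x ∈ U₂) :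
    (∃ r > 0, ball y r ⊆ f '' U₁) ∨ ∃ r > 0, ball y r ⊆ f '' U₂ := by
  classical
  by_contra hcon
  push Not at hcon
  obtain ⟨hc1, hc2⟩ := hcon
  obtain ⟨β', hβ', h0, -⟩ := exists_chart (n := n) y Filter.univ_mem
  have hy2 : y ∈ β' '' Q n 2 := ⟨0, mem_closedBall_self (by norm_num), h0⟩
  have hρ2 : 0 < ρ / 2 := by linarith only [hρ]
  obtain ⟨r, hr, k1, hk1, hconst⟩ := dg_const hn hβ' hρ2
  obtain ⟨r', hr', hmod⟩ := chart_mod hβ' (show (2 : ℝ) < 7 by norm_num) one_pos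
  have hball : ∀ z, dist z y < r' → z ∈ β' '' Q n 7 := by
    intro z hz
    obtain ⟨u, hu, huy⟩ := hy2
    obtain ⟨v, hv, hvy, _⟩ := hmod u hu z (by rw [huy, dist_comm]; exact hz)
    exact ⟨v, hv, hvy⟩
  have key : ∀ U : Set M, IsCompact U → (∀ r > 0, ¬ ball y r ⊆ f '' U) → ∃ κ > 0,
      ∀ c : Ch (ZMod 2) M, Sup (fun l => l.length = n + 1 ∧ Sm κ l) c →
      Sup (fun l => ∀ z ∈ l, ρ / 2 ≤ dist z y) (bd (pf f (c.filter (In U)))) →
      dg β' (pf f (c.filter (In U))) y = 0 := by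
    intro U hU hnot
    obtain ⟨z, hz, hzU⟩ := not_subset.1 (hnot (min r r') (lt_min hr hr'))
    rw [mem_ball] at hz
    have hcl : IsClosed (f '' U) := (hU.image f.continuous).isClosed
    obtain ⟨t, ht, hb⟩ := Metric.mem_nhds_iff.1 (hcl.isOpen_compl.mem_nhds hzU)
    obtain ⟨k3, hk3, hfar⟩ := dg_far hβ' ht
    obtain ⟨κ, hκ, hsm⟩ := small_map f.continuous (lt_min hk1 hk3)
    refine ⟨κ, hκ, fun c hc hbd => ?_⟩
    have hs : Sup (fun l => (l.length = n + 1 ∧ Sm (min k1 k3) l) ∧ In (f '' U) l)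
        (pf f (c.filter (In U))) := by
      refine Sup.pf f ?_
      intro l hl
      rw [Finsupp.support_filter, Finset.mem_filter] at hl
      refine ⟨⟨?_, hsm l (hc l hl.1).2⟩, ?_⟩
      · rw [List.length_map]; exact (hc l hl.1).1
      · intro a ha
        obtain ⟨w, hw, rfl⟩ := List.mem_map.1 ha
        exact ⟨w, hl.2 w hw, rfl⟩
    rw [← hconst _ y hy2 (Sup.mono (fun l hl => ⟨hl.1.1, sm_mono (min_le_left _ _) hl.1.2⟩) hs)
      hbd z (hz.trans_le (min_le_left _ _))]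
    refine (hfar _ z (hball z (hz.trans_le (min_le_right _ _))) (Sup.mono (fun l hl => ?_) hs)).1
    refine ⟨sm_mono (min_le_right _ _) hl.1.2, ?_⟩
    have hne : l ≠ [] := by
      intro h
      have := hl.1.1
      rw [h] at this
      simp at this
    obtain ⟨w, hw⟩ := List.exists_mem_of_ne_nil l hne
    refine ⟨w, hw, ?_⟩
    by_contra hlt
    rw [not_le] at hlt
    exact hb (mem_ball.2 (by rw [dist_comm]; exact hlt)) (hl.2 w hw)
  obtain ⟨κ₁, hκ₁, H1⟩ := key U₁ h₁ hc1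
  obtain ⟨κ₂, hκ₂, H2⟩ := key U₂ h₂ hc2
  obtain ⟨κ₃, hκ₃, H3⟩ := dec f.continuous h₁ h₂ hd hρ hcov hβ'
  obtain ⟨c, hc0, hcs, hc1⟩ := hf β' hβ' _ (lt_min (lt_min hκ₁ hκ₂) hκ₃)
  obtain ⟨hb1, hb2, hsum⟩ := H3 c hc0
    (Sup.mono (fun l hl => ⟨hl.1, sm_mono (min_le_right _ _) hl.2⟩) hcs)
  have e1 := H1 c (Sup.mono (fun l hl => ⟨hl.1, sm_mono ((min_le_left _ _).trans
    (min_le_left _ _)) hl.2⟩) hcs) hb1
  have e2 := H2 c (Sup.mono (fun l hl => ⟨hl.1, sm_mono ((min_le_left _ _).trans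
    (min_le_right _ _)) hl.2⟩) hcs) hb2
  have e3 := hsum y (q_mono (by norm_num) β' hy2) (by rw [dist_self]; linarith only [hρ])
  rw [hc1 y hy2, e1, e2, add_zero] at e3
  exact one_ne_zero e3

omit [CompactSpace N] in
/-- If a fibre is not connected, there is a nonempty open set on the source which can be removed
without changing the image, and which meets no connected fibre. -/
theorem split (hn : 0 < n) (f : C(M, N)) (hf : DegOne n f) {y : N}
    (hy : ¬ IsPreconnected (f ⁻¹' {y})) :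
    ∃ O : Set M, IsOpen O ∧ O.Nonempty ∧ f '' Oᶜ = univ ∧
      ∀ x ∈ O, ¬ IsPreconnected (f ⁻¹' {f x}) := by
  have hsurj := surj f hf
  rw [isPreconnected_closed_iff] at hy
  push Not at hy
  obtain ⟨A, B, hA, hB, hAB, hneA, hneB, hemp⟩ := hy
  have hFc : IsClosed (f ⁻¹' {y}) := isClosed_singleton.preimage f.continuous
  have hdis : Disjoint (f ⁻¹' {y} ∩ A) (f ⁻¹' {y} ∩ B) := by
    rw [disjoint_left]
    rintro x ⟨h1, h2⟩ ⟨-, h3⟩
    have : x ∈ f ⁻¹' {y} ∩ (A ∩ B) := ⟨h1, h2, h3⟩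
    rw [hemp] at this
    exact this
  obtain ⟨δ, hδ, hd⟩ := hdis.exists_cthickenings (hFc.inter hA).isCompact (hFc.inter hB)
  -- the symmetric statement
  have key : ∀ A B : Set M, (f ⁻¹' {y} ∩ B).Nonempty →
      Disjoint (Metric.cthickening δ (f ⁻¹' {y} ∩ A)) (Metric.cthickening δ (f ⁻¹' {y} ∩ B)) →
      ∀ ρ > 0, (∀ x, dist (f x) y < ρ → x ∈ Metric.cthickening δ (f ⁻¹' {y} ∩ A) ∨
        x ∈ Metric.cthickening δ (f ⁻¹' {y} ∩ B)) →
      ∀ r > 0, Metric.ball y r ⊆ f '' Metric.cthickening δ (f ⁻¹' {y} ∩ A) →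
      ∃ O : Set M, IsOpen O ∧ O.Nonempty ∧ f '' Oᶜ = univ ∧
        ∀ x ∈ O, ¬ IsPreconnected (f ⁻¹' {f x}) := by
    intro A B hneB hd ρ hρ hcov r hr hon
    obtain ⟨x₀, hx₀, hx₀B⟩ := hneB
    have hx₀y : f x₀ = y := hx₀
    refine ⟨Metric.thickening δ (f ⁻¹' {y} ∩ B) ∩ f ⁻¹' Metric.ball y (min ρ r),
      Metric.isOpen_thickening.inter (Metric.isOpen_ball.preimage f.continuous),
      ⟨x₀, Metric.self_subset_thickening hδ _ ⟨hx₀, hx₀B⟩, ?_⟩, ?_, ?_⟩
    · show f x₀ ∈ Metric.ball y (min ρ r)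
      rw [hx₀y]
      exact Metric.mem_ball_self (lt_min hρ hr)
    · refine eq_univ_of_forall fun z => ?_
      obtain ⟨x, rfl⟩ := hsurj z
      by_cases hx : x ∈ Metric.thickening δ (f ⁻¹' {y} ∩ B) ∩ f ⁻¹' Metric.ball y (min ρ r)
      · obtain ⟨x', hx', hx'f⟩ := hon (Metric.ball_subset_ball (min_le_right _ _) hx.2)
        refine ⟨x', fun h => ?_, hx'f⟩
        exact (disjoint_left.1 hd) hx' (Metric.thickening_subset_cthickening _ _ h.1)
      · exact ⟨x, hx, rfl⟩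
    · rintro x ⟨hxB, hxy⟩ hp
      have hxy1 : dist (f x) y < ρ := (Metric.mem_ball.1 hxy).trans_le (min_le_left _ _)
      have hxy2 : dist (f x) y < r := (Metric.mem_ball.1 hxy).trans_le (min_le_right _ _)
      rw [isPreconnected_closed_iff] at hp
      obtain ⟨x', hx', hx'f⟩ := hon (Metric.mem_ball.2 hxy2)
      obtain ⟨w, -, hw1, hw2⟩ := hp _ _ Metric.isClosed_cthickening Metric.isClosed_cthickening (by
          intro z hz
          have hz' : f z = f x := hz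
          exact hcov z (by rw [hz']; exact hxy1))
        ⟨x', hx'f, hx'⟩ ⟨x, rfl, Metric.thickening_subset_cthickening _ _ hxB⟩
      exact (disjoint_left.1 hd) hw1 hw2
  obtain ⟨ρ, hρ, htube⟩ := exists_tube f.continuous
    ((Metric.isOpen_thickening (δ := δ) (E := f ⁻¹' {y} ∩ A)).union
      (Metric.isOpen_thickening (δ := δ) (E := f ⁻¹' {y} ∩ B))) (y := y) (by
      intro x hx
      rcases hAB hx with h | h
      · exact Or.inl (Metric.self_subset_thickening hδ _ ⟨hx, h⟩)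
      · exact Or.inr (Metric.self_subset_thickening hδ _ ⟨hx, h⟩))
  have hcov : ∀ x, dist (f x) y < ρ → x ∈ Metric.cthickening δ (f ⁻¹' {y} ∩ A) ∨
      x ∈ Metric.cthickening δ (f ⁻¹' {y} ∩ B) := fun x hx =>
    (htube x hx).imp (fun h => Metric.thickening_subset_cthickening _ _ h)
      (fun h => Metric.thickening_subset_cthickening _ _ h)
  rcases stepA hn f hf Metric.isClosed_cthickening.isCompact
    Metric.isClosed_cthickening.isCompact hd hρ hcov with ⟨r, hr, hon⟩ | ⟨r, hr, hon⟩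
  · exact key A B hneB hd ρ hρ hcov r hr hon
  · exact key B A hneA hd.symm ρ hρ (fun x hx => (hcov x hx).symm) r hr hon

omit [ChartedSpace (EuclideanSpace ℝ (Fin n)) N] in
/-- Maps with Lipschitz constants close to `K` have a `K`-Lipschitz uniform limit. -/
theorem exists_limit (K : NNReal) (P : C(M, N) → Prop)
    (H : ∀ ε : ℝ, 0 < ε → ∃ h : C(M, N), P h ∧
      ∀ x x', dist (h x) (h x') ≤ (K + ε) * dist x x') :
    ∃ f : C(M, N), LipschitzWith K f ∧
      ∀ ε : ℝ, 0 < ε → ∃ h : C(M, N), P h ∧ ∀ x, dist (f x) (h x) < ε := by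
  have hpos : ∀ i : ℕ, (0 : ℝ) < 1 / ((i : ℝ) + 1) := fun i => by positivity
  choose f hfd hfl using fun i : ℕ => H (1 / ((i : ℝ) + 1)) (hpos i)
  let 𝒰 : Ultrafilter ℕ := Filter.hyperfilter ℕ
  have hU : (𝒰 : Filter ℕ) ≤ Filter.atTop := by
    rw [← Nat.cofinite_eq_atTop]
    exact Filter.hyperfilter_le_cofinite
  have hεU : Filter.Tendsto (fun i : ℕ => 1 / ((i : ℝ) + 1)) 𝒰 (𝓝 0) :=
    tendsto_one_div_add_atTop_nhds_zero_nat.mono_left hU
  have limN : ∀ u : ℕ → N, ∃ y, Filter.Tendsto u 𝒰 (𝓝 y) := fun u => by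
    obtain ⟨y, -, hy⟩ := isCompact_univ.ultrafilter_le_nhds (𝒰.map u) (by simp)
    exact ⟨y, hy⟩
  choose f0 hf0 using fun x => limN fun i => f i x
  have lf : ∀ x x', dist (f0 x) (f0 x') ≤ K * dist x x' := by
    intro x x'
    have h1 : Filter.Tendsto (fun i : ℕ => ((K : ℝ) + 1 / ((i : ℝ) + 1)) * dist x x') 𝒰
        (𝓝 (((K : ℝ) + 0) * dist x x')) :=
      (tendsto_const_nhds.add hεU).mul_const _
    rw [add_zero] at h1
    exact le_of_tendsto_of_tendsto ((hf0 x).dist (hf0 x')) h1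
      (Filter.Eventually.of_forall fun i => hfl i x x')
  have hlip : LipschitzWith K f0 := LipschitzWith.of_dist_le_mul lf
  refine ⟨⟨f0, hlip.continuous⟩, hlip, fun ε hε => ?_⟩
  set ρ : ℝ := ε / (4 * ((K : ℝ) + 1)) with hρ
  have hK1 : (0 : ℝ) < (K : ℝ) + 1 := by positivity
  have hρ0 : 0 < ρ := by positivity
  obtain ⟨t, -, htf, htc⟩ := (isCompact_univ (X := M)).finite_cover_balls hρ0
  have hev : ∀ᶠ i in (𝒰 : Filter ℕ), ∀ a ∈ t, dist (f i a) (f0 a) < ε / 4 := by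
    rw [Filter.eventually_all_finite htf]
    intro a _
    have h1 := tendsto_iff_dist_tendsto_zero.1 (hf0 a)
    exact h1.eventually (gt_mem_nhds (by positivity))
  obtain ⟨i, hi⟩ := hev.exists
  refine ⟨f i, hfd i, fun x => ?_⟩
  have hx : x ∈ ⋃ a ∈ t, Metric.ball a ρ := htc (mem_univ x)
  obtain ⟨a, ha, hxa⟩ := mem_iUnion₂.1 hx
  rw [Metric.mem_ball] at hxa
  have e1 : dist (f i x) (f i a) ≤ ((K : ℝ) + 1) * ρ := by
    refine (hfl i x a).trans ?_
    refine mul_le_mul ?_ hxa.le dist_nonneg hK1.le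
    have h2 : 1 / ((i : ℝ) + 1) ≤ 1 := by
      rw [div_le_one (by positivity)]
      have : (0 : ℝ) ≤ i := Nat.cast_nonneg i
      linarith
    linarith
  have e2 : dist (f0 x) (f0 a) ≤ ((K : ℝ) + 1) * ρ := by
    refine (lf x a).trans ?_
    refine mul_le_mul (by linarith) hxa.le dist_nonneg hK1.le
  have e3 := hi a ha
  have e4 : ((K : ℝ) + 1) * ρ = ε / 4 := by
    rw [hρ]
    field_simp
  have e5 := dist_triangle4 (f0 x) (f0 a) (f i a) (f i x)
  rw [dist_comm (f0 a) (f i a), dist_comm (f i a) (f i x)] at e5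
  show dist (f0 x) (f i x) < ε
  linarith

end Deg

end Vale.Agent.P260.R2.H716
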