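import Vale.Agent.P260.R2.H716.Rig

/-!
# P260: volume rigidity and minimal actions: the main statements
-/

open Metric Set Topology TopologicalSpace MeasureTheory
open Vale.Agent.P260.H283
open scoped ENNReal NNReal Pointwise

namespace Vale.Agent.P260.R2.H716

section Volume

variable {n : ℕ} {M N : Type*} [MetricSpace M] [CompactSpace M] [ConnectedSpace M]
  [ChartedSpace (EuclideanSpace ℝ (Fin n)) M] [MeasurableSpace M] [BorelSpace M]
  [MetricSpace N] [CompactSpace N] [ChartedSpace (EuclideanSpace ℝ (Fin n)) N]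
  [MeasurableSpace N] [BorelSpace N]

omit [CompactSpace N] in
/-- A Lipschitz map of degree one modulo two which cannot decrease the volume more than its
Lipschitz constant allows: all fibres are connected, and preimages of open sets are not too
large. -/
theorem vol_conn (hn : 0 < n) (f : C(M, N)) (hf : DegOne n f) {K : ℝ≥0}
    (hlip : LipschitzWith K f) (hfin : (μH[(n : ℝ)] : Measure M) univ ≠ ⊤)
    (hvol : (K : ℝ≥0∞) ^ (n : ℝ) * (μH[(n : ℝ)] : Measure M) univ ≤
      (μH[(n : ℝ)] : Measure N) univ) :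
    0 < K ∧ (∀ y, IsPreconnected (f ⁻¹' {y})) ∧ ∀ B : Set N, IsOpen B →
      (K : ℝ≥0∞) ^ (n : ℝ) * (μH[(n : ℝ)] : Measure M) (f ⁻¹' B) =
        (μH[(n : ℝ)] : Measure N) B := by
  have hs := surj f hf
  have hK : 0 < K := by
    rw [pos_iff_ne_zero]
    rintro rfl
    have h1 := hlip.hausdorffMeasure_image_le (Nat.cast_nonneg (α := ℝ) n) univ
    have hn' : (0 : ℝ) < n := by exact_mod_cast hn
    rw [image_univ, hs.range_eq, ENNReal.coe_zero, ENNReal.zero_rpow_of_pos hn', zero_mul] at h1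
    obtain ⟨x⟩ : Nonempty M := inferInstance
    have h2 := hausdorff_pos (n := n) (X := N) isOpen_univ ⟨f x, trivial⟩
    exact absurd h2 (not_lt.2 h1)
  set k : ℝ≥0∞ := (K : ℝ≥0∞) ^ (n : ℝ) with hk
  have hk0 : k ≠ 0 := by
    rw [hk]
    exact (ENNReal.rpow_pos (by exact_mod_cast hK) ENNReal.coe_ne_top).ne'
  have hktop : k ≠ ⊤ := by
    rw [hk]
    exact ENNReal.rpow_ne_top_of_nonneg (Nat.cast_nonneg n) ENNReal.coe_ne_top
  let μ : Measure M := k • (μH[(n : ℝ)] : Measure M)
  have hμ : ∀ A : Set M, μ A = k * (μH[(n : ℝ)] : Measure M) A := fun A => by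
    show (k • (μH[(n : ℝ)] : Measure M)) A = _
    rw [Measure.smul_apply, smul_eq_mul]
  have hfinμ : IsFiniteMeasure μ := ⟨by
    rw [hμ]
    exact ENNReal.mul_lt_top hktop.lt_top hfin.lt_top⟩
  have hposμ : μ.IsOpenPosMeasure := ⟨fun U hU hne h0 => by
    rw [hμ] at h0
    rcases mul_eq_zero.1 h0 with h | h
    · exact hk0 h
    · exact (hausdorff_pos (n := n) hU hne).ne' h⟩
  have hKle : ∀ A : Set M, IsCompact A → (μH[(n : ℝ)] : Measure N) (f '' A) ≤ μ A := by
    intro A _
    rw [hμ]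
    exact hlip.hausdorffMeasure_image_le (Nat.cast_nonneg (α := ℝ) n) A
  have htot : μ univ ≤ (μH[(n : ℝ)] : Measure N) univ := by
    rw [hμ]
    exact hvol
  refine ⟨hK, conn_of_measure hn f hf μ _ hKle htot, fun B hB => le_antisymm ?_ ?_⟩
  · rw [← hμ]
    exact preimage_le f hs μ _ hKle htot hB
  · have h1 := hlip.hausdorffMeasure_image_le (Nat.cast_nonneg (α := ℝ) n) (f ⁻¹' B)
    rwa [image_preimage_eq _ hs] at h1

omit [CompactSpace N] in
/-- With volume growth the map is injective. -/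
theorem vol_inj (hn : 0 < n) (f : C(M, N)) (hf : DegOne n f) {K : ℝ≥0}
    (hlip : LipschitzWith K f) (hfin : (μH[(n : ℝ)] : Measure M) univ ≠ ⊤)
    (hvol : (K : ℝ≥0∞) ^ (n : ℝ) * (μH[(n : ℝ)] : Measure M) univ ≤
      (μH[(n : ℝ)] : Measure N) univ) {c C r₀ s t : ℝ} (hc : 0 < c)
    (hC : 0 < C) (hr₀ : 0 < r₀) (hst : s < t + 1)
    (hlow : ∀ (x : M) (r : ℝ), 0 < r → r ≤ r₀ →
      ENNReal.ofReal (c * r ^ s) ≤ (μH[(n : ℝ)] : Measure M) (ball x r))
    (hup : ∀ (y : N) (r : ℝ), 0 < r → r ≤ r₀ →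
      (μH[(n : ℝ)] : Measure N) (ball y r) ≤ ENNReal.ofReal (C * r ^ t)) :
    IsHomeomorph f := by
  obtain ⟨hK, hconn, hpre⟩ := vol_conn hn f hf hlip hfin hvol
  have hK' : (0 : ℝ) < K := by exact_mod_cast hK
  have hk : ((K : ℝ≥0∞) ^ (n : ℝ)) = ENNReal.ofReal ((K : ℝ) ^ (n : ℝ)) := by
    rw [← ENNReal.ofReal_rpow_of_pos hK', ENNReal.ofReal_coe_nnreal]
  rw [isHomeomorph_iff_continuous_bijective]
  refine ⟨f.continuous, ?_, surj f hf⟩
  refine inj_of_growth f hlip hconn (((K : ℝ≥0∞) ^ (n : ℝ)) • (μH[(n : ℝ)] : Measure M))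
    (μH[(n : ℝ)] : Measure N) (fun B hB => ?_) (c := (K : ℝ) ^ (n : ℝ) * c)
    (by positivity) hC hr₀ hst (fun x r hr hr' => ?_) hup
  · rw [Measure.smul_apply, smul_eq_mul]
    exact (hpre B hB).le
  · rw [Measure.smul_apply, smul_eq_mul, hk, mul_assoc, ENNReal.ofReal_mul (by positivity)]
    exact mul_le_mul_right (hlow x r hr hr') _

end Volume

section Final

/-- Growth of volumes: for small `r > 0` all `r`-balls of `M` have `n`-dimensional volume at least
`c r ^ s` and all `r`-balls of `N` have volume at most `C r ^ t`, where `s < t + 1`. -/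
def Growth (n : ℕ) (M N : Type*) [MetricSpace M] [MeasurableSpace M] [BorelSpace M]
    [MetricSpace N] [MeasurableSpace N] [BorelSpace N] : Prop :=
  ∃ c C r₀ s t : ℝ, 0 < c ∧ 0 < C ∧ 0 < r₀ ∧ s < t + 1 ∧
    (∀ (x : M) (r : ℝ), 0 < r → r ≤ r₀ →
      ENNReal.ofReal (c * r ^ s) ≤ (μH[(n : ℝ)] : Measure M) (ball x r)) ∧
    ∀ (y : N) (r : ℝ), 0 < r → r ≤ r₀ →
      (μH[(n : ℝ)] : Measure N) (ball y r) ≤ ENNReal.ofReal (C * r ^ t)

/-- `f` can be approximated uniformly by maps with a homotopy section. -/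
def NearSection {M N : Type*} [MetricSpace M] [MetricSpace N] (f : C(M, N)) : Prop :=
  ∀ ε : ℝ, 0 < ε → ∃ (h : C(M, N)) (g : C(N, M)),
    (h.comp g).Homotopic (ContinuousMap.id N) ∧ ∀ x, dist (f x) (h x) < ε

variable {n : ℕ} {M N : Type*} [MetricSpace M] [CompactSpace M] [ConnectedSpace M]
  [ChartedSpace (EuclideanSpace ℝ (Fin n)) M] [MeasurableSpace M] [BorelSpace M]
  [MetricSpace N] [CompactSpace N] [ChartedSpace (EuclideanSpace ℝ (Fin n)) N]
  [MeasurableSpace N] [BorelSpace N]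

/-- Volume rigidity for limits of maps with a homotopy section. -/
theorem vol_main (hn : 0 < n) {K : ℝ≥0} (hfin : (μH[(n : ℝ)] : Measure M) univ ≠ ⊤)
    (hvol : (K : ℝ≥0∞) ^ n * (μH[(n : ℝ)] : Measure M) univ ≤
      (μH[(n : ℝ)] : Measure N) univ) (f : C(M, N)) (hlip : LipschitzWith K f)
    (hf : NearSection f) :
    (∀ y, IsConnected (f ⁻¹' {y})) ∧
      (∀ B : Set N, IsOpen B → (K : ℝ≥0∞) ^ n * (μH[(n : ℝ)] : Measure M) (f ⁻¹' B) =
        (μH[(n : ℝ)] : Measure N) B) ∧
      (Growth n M N → IsHomeomorph f) := by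
  have hdeg : DegOne n f := degOne_of_near f fun ε hε => by
    obtain ⟨h, g, hg, hd⟩ := hf ε hε
    exact ⟨h, degOne_of_section hn h g hg, hd⟩
  rw [← ENNReal.rpow_natCast] at hvol
  obtain ⟨-, h1, h2⟩ := vol_conn hn f hdeg hlip hfin hvol
  refine ⟨fun y => ?_, fun B hB => ?_, ?_⟩
  · obtain ⟨x, hx⟩ := surj f hdeg y
    exact ⟨⟨x, hx⟩, h1 y⟩
  · rw [← ENNReal.rpow_natCast]
    exact h2 B hB
  · rintro ⟨c, C, r₀, s, t, hc, hC, hr, hst, hlow, hup⟩
    exact vol_inj hn f hdeg hlip hfin hvol hc hC hr hst hlow hup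

/-- Lipschitz constants of maps with a homotopy section which tend to `K`. -/
theorem vol_limit (hn : 0 < n) {K : ℝ≥0} (hfin : (μH[(n : ℝ)] : Measure M) univ ≠ ⊤)
    (hvol : (K : ℝ≥0∞) ^ n * (μH[(n : ℝ)] : Measure M) univ ≤
      (μH[(n : ℝ)] : Measure N) univ)
    (H : ∀ ε : ℝ, 0 < ε → ∃ (h : C(M, N)) (g : C(N, M)),
      (h.comp g).Homotopic (ContinuousMap.id N) ∧
      ∀ x x', dist (h x) (h x') ≤ (K + ε) * dist x x') :
    (∃ f : C(M, N), LipschitzWith K f ∧ NearSection f) ∧
      (Growth n M N → ∃ e : M ≃ₜ N, ∀ x x', dist (e x) (e x') ≤ K * dist x x') := by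
  obtain ⟨f, hf, hf'⟩ := exists_limit K
    (fun h : C(M, N) => ∃ g : C(N, M), (h.comp g).Homotopic (ContinuousMap.id N))
    (fun ε hε => by
      obtain ⟨h, g, hg, hd⟩ := H ε hε
      exact ⟨h, ⟨g, hg⟩, hd⟩)
  have hs : NearSection f := fun ε hε => by
    obtain ⟨h, ⟨g, hg⟩, hd⟩ := hf' ε hε
    exact ⟨h, g, hg, hd⟩
  refine ⟨⟨f, hf, hs⟩, fun hG => ?_⟩
  have hh := (vol_main hn hfin hvol f hf hs).2.2 hG
  exact ⟨hh.homeomorph, fun x x' => hf.dist_le_mul x x'⟩

end Final

section Top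

variable {n : ℕ} {M N : Type*} [TopologicalSpace M] [T2Space M] [CompactSpace M]
  [ConnectedSpace M] [ChartedSpace (EuclideanSpace ℝ (Fin n)) M] [TopologicalSpace N] [T2Space N]
  [CompactSpace N] [ChartedSpace (EuclideanSpace ℝ (Fin n)) N]

/-- Connected fibres which are dense. -/
theorem top_dense (hn : 0 < n) (f : C(M, N)) (g : C(N, M))
    (hfg : (f.comp g).Homotopic (ContinuousMap.id N))
    (h : Dense {x | IsPreconnected (f ⁻¹' {f x})}) (y : N) : IsConnected (f ⁻¹' {y}) := by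
  have hs := top_surj (n := n) hn f g hfg
  have : SecondCountableTopology M :=
    ChartedSpace.secondCountable_of_sigmaCompact (EuclideanSpace ℝ (Fin n)) M
  have : SecondCountableTopology N :=
    ChartedSpace.secondCountable_of_sigmaCompact (EuclideanSpace ℝ (Fin n)) N
  have : MetrizableSpace M := metrizableSpace_of_t3_secondCountable M
  have : MetrizableSpace N := metrizableSpace_of_t3_secondCountable N
  let _ : MetricSpace M := metrizableSpaceMetric M
  let _ : MetricSpace N := metrizableSpaceMetric N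
  obtain ⟨x, hx⟩ := hs y
  refine ⟨⟨x, hx⟩, fibres_int (n := n) hn f g hfg (S := {y | ¬ IsPreconnected (f ⁻¹' {y})})
    (fun z hz => not_not.1 hz) ?_ y⟩
  have h1 : f ⁻¹' {y | ¬ IsPreconnected (f ⁻¹' {y})} = {x | IsPreconnected (f ⁻¹' {f x})}ᶜ := rfl
  rw [h1, interior_eq_empty_iff_dense_compl, compl_compl]
  exact h

/-- A fibre which is not connected. -/
theorem top_split (hn : 0 < n) (f : C(M, N)) (g : C(N, M))
    (hfg : (f.comp g).Homotopic (ContinuousMap.id N)) {y : N}
    (hy : ¬ IsConnected (f ⁻¹' {y})) :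
    ∃ O : Set M, IsOpen O ∧ O.Nonempty ∧ f '' Oᶜ = univ ∧
      ∀ x ∈ O, ¬ IsConnected (f ⁻¹' {f x}) := by
  have hs := top_surj (n := n) hn f g hfg
  have : SecondCountableTopology M :=
    ChartedSpace.secondCountable_of_sigmaCompact (EuclideanSpace ℝ (Fin n)) M
  have : SecondCountableTopology N :=
    ChartedSpace.secondCountable_of_sigmaCompact (EuclideanSpace ℝ (Fin n)) N
  have : MetrizableSpace M := metrizableSpace_of_t3_secondCountable M
  have : MetrizableSpace N := metrizableSpace_of_t3_secondCountable N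
  let _ : MetricSpace M := metrizableSpaceMetric M
  let _ : MetricSpace N := metrizableSpaceMetric N
  obtain ⟨O, h1, h2, h3, h4⟩ := split hn f (degOne_of_section hn f g hfg) (y := y) (fun h => by
    obtain ⟨x, hx⟩ := hs y
    exact hy ⟨⟨x, hx⟩, h⟩)
  exact ⟨O, h1, h2, h3, fun x hx h => h4 x hx h.isPreconnected⟩

/-- Maps which are not onto on proper closed subsets. -/
theorem top_irred (hn : 0 < n) (f : C(M, N)) (g : C(N, M))
    (hfg : (f.comp g).Homotopic (ContinuousMap.id N))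
    (h : ∀ C : Set M, IsClosed C → f '' C = univ → C = univ) (y : N) :
    IsConnected (f ⁻¹' {y}) := by
  have hs := top_surj (n := n) hn f g hfg
  have : SecondCountableTopology M :=
    ChartedSpace.secondCountable_of_sigmaCompact (EuclideanSpace ℝ (Fin n)) M
  have : SecondCountableTopology N :=
    ChartedSpace.secondCountable_of_sigmaCompact (EuclideanSpace ℝ (Fin n)) N
  have : MetrizableSpace M := metrizableSpace_of_t3_secondCountable M
  have : MetrizableSpace N := metrizableSpace_of_t3_secondCountable N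
  let _ : MetricSpace M := metrizableSpaceMetric M
  let _ : MetricSpace N := metrizableSpaceMetric N
  obtain ⟨x, hx⟩ := hs y
  exact ⟨⟨x, hx⟩, conn_of_irred hn f (degOne_of_section hn f g hfg) h y⟩

/-- Measures. -/
theorem top_measure (hn : 0 < n) (f : C(M, N)) (g : C(N, M))
    (hfg : (f.comp g).Homotopic (ContinuousMap.id N)) [MeasurableSpace M] [BorelSpace M]
    [MeasurableSpace N] (μ : Measure M) [IsFiniteMeasure μ] [μ.IsOpenPosMeasure] (ν : Measure N)
    (hK : ∀ K : Set M, IsCompact K → ν (f '' K) ≤ μ K) (htot : μ univ ≤ ν univ) (y : N) :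
    IsConnected (f ⁻¹' {y}) := by
  have hs := top_surj (n := n) hn f g hfg
  have : SecondCountableTopology M :=
    ChartedSpace.secondCountable_of_sigmaCompact (EuclideanSpace ℝ (Fin n)) M
  have : SecondCountableTopology N :=
    ChartedSpace.secondCountable_of_sigmaCompact (EuclideanSpace ℝ (Fin n)) N
  have : MetrizableSpace M := metrizableSpace_of_t3_secondCountable M
  have : MetrizableSpace N := metrizableSpace_of_t3_secondCountable N
  let _ : MetricSpace M := metrizableSpaceMetric M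
  let _ : MetricSpace N := metrizableSpaceMetric N
  obtain ⟨x, hx⟩ := hs y
  exact ⟨⟨x, hx⟩, conn_of_measure hn f (degOne_of_section hn f g hfg) μ ν hK htot y⟩

section Act

variable {G : Type*} [Group G] [MulAction G M] [MulAction G N] [ContinuousConstSMul G M]
  [ContinuousConstSMul G N]

omit [T2Space M] [CompactSpace M] [ConnectedSpace M] [ChartedSpace (EuclideanSpace ℝ (Fin n)) M]
  [T2Space N] [CompactSpace N] [ChartedSpace (EuclideanSpace ℝ (Fin n)) N]
  [ContinuousConstSMul G M] [ContinuousConstSMul G N] in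
/-- Fibres of an equivariant map are moved to fibres. -/
theorem fibre_smul (f : C(M, N)) (he : ∀ (a : G) (x : M), f (a • x) = a • f x) (a : G) (y : N) :
    f ⁻¹' {a • y} = (fun x => a • x) '' (f ⁻¹' {y}) := by
  ext x
  constructor
  · intro hx
    have hx' : f x = a • y := hx
    refine ⟨a⁻¹ • x, ?_, smul_inv_smul a x⟩
    show f (a⁻¹ • x) = y
    rw [he, hx', inv_smul_smul]
  · rintro ⟨z, hz, rfl⟩
    have hz' : f z = y := hz
    show f (a • z) = a • y
    rw [he, hz']

omit [T2Space M] [CompactSpace M] [ConnectedSpace M] [ChartedSpace (EuclideanSpace ℝ (Fin n)) M]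
  [T2Space N] [CompactSpace N] [ChartedSpace (EuclideanSpace ℝ (Fin n)) N]
  [ContinuousConstSMul G N] in
theorem conn_smul (f : C(M, N)) (he : ∀ (a : G) (x : M), f (a • x) = a • f x) (a : G) {y : N}
    (hy : IsPreconnected (f ⁻¹' {y})) : IsPreconnected (f ⁻¹' {a • y}) := by
  rw [fibre_smul f he]
  exact hy.image _ (continuous_const_smul a).continuousOn

omit [ContinuousConstSMul G N] in
/-- A point with a dense orbit in a connected fibre. -/
theorem top_orbit (hn : 0 < n) (f : C(M, N)) (g : C(N, M))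
    (hfg : (f.comp g).Homotopic (ContinuousMap.id N))
    (he : ∀ (a : G) (x : M), f (a • x) = a • f x) {x₀ : M}
    (hd : Dense (MulAction.orbit G x₀)) (hx₀ : IsPreconnected (f ⁻¹' {f x₀})) (y : N) :
    IsConnected (f ⁻¹' {y}) := by
  refine top_dense hn f g hfg (hd.mono ?_) y
  rintro _ ⟨a, rfl⟩
  show IsPreconnected (f ⁻¹' {f (a • x₀)})
  rw [he]
  exact conn_smul f he a hx₀

omit [ContinuousConstSMul G N] in
/-- A point with a dense orbit over which the fibre is connected or has at most two points. -/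
theorem top_orbit_two (hn : 0 < n) (f : C(M, N)) (g : C(N, M))
    (hfg : (f.comp g).Homotopic (ContinuousMap.id N))
    (he : ∀ (a : G) (x : M), f (a • x) = a • f x)
    (hfib : ∀ y, IsPreconnected (f ⁻¹' {y}) ∨ IsTotallyDisconnected (f ⁻¹' {y})) {y₀ : N}
    (hd : Dense (MulAction.orbit G y₀))
    (hy₀ : IsPreconnected (f ⁻¹' {y₀}) ∨ (f ⁻¹' {y₀}).encard ≤ 2) (y : N) :
    IsConnected (f ⁻¹' {y}) := by
  obtain ⟨x, hx⟩ := top_surj (n := n) hn f g hfg y
  refine ⟨⟨x, hx⟩, ?_⟩
  by_contra hny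
  obtain ⟨V, hVo, hVne, -, hV⟩ := top_local (n := n) hn f g hfg (W := univ) Filter.univ_mem
    (fun z _ => hfib z) hny
  obtain ⟨z, hzV, ⟨a, rfl⟩⟩ := hd.inter_open_nonempty V hVo hVne
  obtain ⟨h1, h2⟩ := hV _ hzV
  rcases hy₀ with h | h
  · exact h1 (conn_smul f he a h)
  · have h3 : (f ⁻¹' {a • y₀}).encard ≤ 2 := by
      rw [fibre_smul f he]
      exact (Set.encard_image_le _ _).trans h
    exact absurd (h2.trans h3) (by norm_num)

/-- Equivariant maps to minimal actions with finite fibres over an open set. -/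
theorem top_minimal (hn : 0 < n) (f : C(M, N)) (g : C(N, M))
    (hfg : (f.comp g).Homotopic (ContinuousMap.id N))
    (he : ∀ (a : G) (x : M), f (a • x) = a • f x)
    (hmin : ∀ y : N, Dense (MulAction.orbit G y)) {W : Set N} (hW : IsOpen W)
    (hWne : W.Nonempty) (hfin : ∀ y ∈ W, (f ⁻¹' {y}).Finite) : IsHomeomorph f := by
  have hs := top_surj (n := n) hn f g hfg
  rw [isHomeomorph_iff_continuous_bijective]
  refine ⟨f.continuous, ?_, hs⟩
  by_contra hninj
  obtain ⟨p, q, hpq, hne⟩ : ∃ p q, f p = f q ∧ p ≠ q := by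
    unfold Function.Injective at hninj
    push Not at hninj
    exact hninj
  obtain ⟨z, hzW, ⟨a, rfl⟩⟩ := (hmin (f p)).inter_open_nonempty W hW hWne
  obtain ⟨V, hVo, hVne, -, m, -, -, U, hUo, hUd, hVU, hUe⟩ := top_cover (n := n) hn f g hfg
    (y := a • f p) (hW.mem_nhds hzW) hfin (by
      intro hsub
      have h1 : a • p ∈ f ⁻¹' {a • f p} := he a p
      have h2 : a • q ∈ f ⁻¹' {a • f p} := by
        show f (a • q) = a • f p
        rw [he, hpq]
      exact hne (MulAction.injective a (hsub h1 h2)))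
  refine hninj (injective_of_local f g hfg ?_)
  -- `f` is a local homeomorphism
  rw [isLocalHomeomorph_iff_isOpenEmbedding_restrict]
  intro x
  obtain ⟨z, hzV, ⟨b, hb⟩⟩ := (hmin (f x)).inter_open_nonempty V hVo hVne
  have hb' : b • f x = z := hb
  have hbx : b • x ∈ f ⁻¹' V := by
    show f (b • x) ∈ V
    rw [he, hb']
    exact hzV
  rw [hVU] at hbx
  obtain ⟨i, hi⟩ := mem_iUnion.1 hbx
  let hM : M ≃ₜ M := Homeomorph.smul b
  let hN : N ≃ₜ N := Homeomorph.smul b
  have hopen : IsOpen ((fun x => b • x) ⁻¹' U i) := (hUo i).preimage (continuous_const_smul b)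
  refine ⟨(fun x => b • x) ⁻¹' U i, hopen.mem_nhds hi, ?_⟩
  have h1 : ((fun x => b • x) ⁻¹' U i).domRestrict f = hN.symm ∘ (fun x : U i => f x) ∘
      (hM.toEquiv.subtypeEquiv (fun x => Iff.rfl) :
        ((fun x => b • x) ⁻¹' U i : Set M) → (U i : Set M)) := by
    funext x
    show f x = b⁻¹ • f (b • (x : M))
    rw [he, inv_smul_smul]
  rw [h1]
  refine hN.symm.isOpenEmbedding.comp ((hUe i).1.comp ?_)
  exact (hM.subtype (fun x => Iff.rfl)).isOpenEmbedding

end Act

end Top

end Vale.Agent.P260.R2.H716
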