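import Vale.Agent.P260.R2.H716.Lim

/-!
# P260: connected fibres from density, measures, volumes and minimal actions
-/

open Metric Set Topology TopologicalSpace MeasureTheory
open scoped unitInterval ENNReal NNReal Pointwise

namespace Vale.Agent.P260.R2.H716

section Haus

variable {n : ℕ} {X : Type*} [MetricSpace X] [MeasurableSpace X] [BorelSpace X]

/-- A map of the unit cube to itself which preserves all faces is onto. -/
theorem cube_onto (F : (Fin n → ℝ) → (Fin n → ℝ)) (hF : Continuous F)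
    (h0 : ∀ x : Fin n → ℝ, (∀ i, 0 ≤ x i ∧ x i ≤ 1) → ∀ i, x i = 0 → F x i = 0)
    (h1 : ∀ x : Fin n → ℝ, (∀ i, 0 ≤ x i ∧ x i ≤ 1) → ∀ i, x i = 1 → F x i = 1)
    (y : Fin n → ℝ) (hy : ∀ i, 0 ≤ y i ∧ y i ≤ 1) :
    ∃ x : Fin n → ℝ, (∀ i, 0 ≤ x i ∧ x i ≤ 1) ∧ F x = y := by
  obtain ⟨x, hx, hfix⟩ := P330.brouwer_unit
    (fun x i => max 0 (min 1 (x i + y i - F x i))) (by
      refine continuous_pi fun i => ?_
      exact continuous_const.max (continuous_const.min
        (((continuous_apply i).add continuous_const).sub ((continuous_apply i).comp hF))))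
    (fun x _ i => ⟨le_max_left _ _, max_le zero_le_one (min_le_left _ _)⟩)
  refine ⟨x, hx, funext fun i => ?_⟩
  have hi : max 0 (min 1 (x i + y i - F x i)) = x i := congrFun hfix i
  obtain ⟨hx0, hx1⟩ := hx i
  obtain ⟨hy0, hy1⟩ := hy i
  rcases hx0.eq_or_lt with h | h
  · have e := h0 x hx i h.symm
    rw [e, ← h, zero_add, sub_zero, min_eq_right hy1, max_eq_right hy0] at hi
    rw [e, hi]
  · rcases hx1.eq_or_lt with h' | h'
    · have e := h1 x hx i h'
      rw [e, h', add_sub_cancel_left, min_eq_right hy1, max_eq_right hy0] at hi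
      rw [e, hi]
    · rcases le_total 1 (x i + y i - F x i) with h2 | h2
      · rw [min_eq_left h2, max_eq_right zero_le_one] at hi
        linarith
      · rw [min_eq_right h2] at hi
        rcases le_total 0 (x i + y i - F x i) with h3 | h3
        · rw [max_eq_right h3] at hi
          linarith
        · rw [max_eq_left h3] at hi
          linarith

/-- The `n`-dimensional Hausdorff measure of a nonempty open subset of a metric `n`-manifold is
positive. -/
theorem hausdorff_pos [ChartedSpace (EuclideanSpace ℝ (Fin n)) X] {U : Set X} (hU : IsOpen U)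
    (hne : U.Nonempty) : 0 < (μH[(n : ℝ)] : Measure X) U := by
  obtain ⟨x₀, hx₀⟩ := hne
  obtain ⟨β, hβ, -, hβU⟩ := H283.exists_chart (n := n) x₀ (hU.mem_nhds hx₀)
  set Q : Set (Fin n → ℝ) := Icc 0 1 with hQ
  have hQc : IsCompact Q := isCompact_Icc
  have hmemQ : ∀ x : Fin n → ℝ, x ∈ Q ↔ ∀ i, 0 ≤ x i ∧ x i ≤ 1 := by
    intro x
    rw [hQ, mem_Icc, Pi.le_def, Pi.le_def]
    exact ⟨fun h i => ⟨h.1 i, h.2 i⟩, fun h => ⟨fun i => (h i).1, fun i => (h i).2⟩⟩
  set F0 : Fin n → Set X := fun i => β '' (Q ∩ {x | x i = 0}) with hF0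
  set F1 : Fin n → Set X := fun i => β '' (Q ∩ {x | x i = 1}) with hF1
  have hF0c : ∀ i, IsCompact (F0 i) := fun i =>
    (hQc.inter_right (isClosed_eq (continuous_apply i) continuous_const)).image hβ.continuous
  have hF1c : ∀ i, IsCompact (F1 i) := fun i =>
    (hQc.inter_right (isClosed_eq (continuous_apply i) continuous_const)).image hβ.continuous
  have hdis : ∀ i, Disjoint (F1 i) (F0 i) := by
    intro i
    rw [disjoint_left]
    rintro _ ⟨x, ⟨-, hx⟩, rfl⟩ ⟨x', ⟨-, hx'⟩, h⟩
    have h2 := hβ.injective h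
    have e1 : x i = 1 := hx
    have e0 : x' i = 0 := hx'
    rw [h2, e1] at e0
    exact one_ne_zero e0
  have hF0ne : ∀ i, (F0 i).Nonempty := fun i =>
    ⟨β 0, 0, ⟨(hmemQ 0).2 fun j => ⟨le_rfl, zero_le_one⟩, rfl⟩, rfl⟩
  choose c hc hcd using fun i => H283.exists_dist_pos (hF1c i) (hF0c i) (hdis i)
  let φ : X → (Fin n → ℝ) := fun p i => min 1 ((c i)⁻¹ * Metric.infDist p (F0 i))
  set L : ℝ≥0 := ∑ i, Real.toNNReal (c i)⁻¹ with hL
  have hLi : ∀ i, (c i)⁻¹ ≤ L := by
    intro i
    refine (Real.le_coe_toNNReal _).trans ?_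
    rw [NNReal.coe_le_coe, hL]
    exact Finset.single_le_sum (f := fun i => Real.toNNReal (c i)⁻¹)
      (fun j _ => bot_le) (Finset.mem_univ i)
  have hφ : LipschitzWith L φ := by
    refine LipschitzWith.of_dist_le_mul fun p q => ?_
    rw [dist_pi_le_iff (by positivity)]
    intro i
    have e1 : |min 1 ((c i)⁻¹ * Metric.infDist p (F0 i)) -
        min 1 ((c i)⁻¹ * Metric.infDist q (F0 i))| ≤
        |(c i)⁻¹ * Metric.infDist p (F0 i) - (c i)⁻¹ * Metric.infDist q (F0 i)| := by
      have := abs_min_sub_min_le_max 1 ((c i)⁻¹ * Metric.infDist p (F0 i)) 1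
        ((c i)⁻¹ * Metric.infDist q (F0 i))
      rw [sub_self, abs_zero, max_eq_right (abs_nonneg _)] at this
      exact this
    rw [Real.dist_eq]
    refine e1.trans ?_
    rw [← mul_sub, abs_mul, abs_of_pos (inv_pos.2 (hc i))]
    have e2 : |Metric.infDist p (F0 i) - Metric.infDist q (F0 i)| ≤ dist p q := by
      have := (Metric.lipschitz_infDist_pt (F0 i)).dist_le_mul p q
      rwa [NNReal.coe_one, one_mul, Real.dist_eq] at this
    exact mul_le_mul (hLi i) e2 (abs_nonneg _) L.2
  have honto : Q ⊆ φ '' U := by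
    intro y hy
    obtain ⟨x, hx, hxy⟩ := cube_onto (fun x => φ (β x)) (hφ.continuous.comp hβ.continuous) (by
      intro x hx i hi
      have h1 : β x ∈ F0 i := ⟨x, ⟨(hmemQ x).2 hx, hi⟩, rfl⟩
      show min 1 ((c i)⁻¹ * Metric.infDist (β x) (F0 i)) = 0
      rw [Metric.infDist_zero_of_mem h1, mul_zero]
      exact min_eq_right zero_le_one) (by
      intro x hx i hi
      have h1 : β x ∈ F1 i := ⟨x, ⟨(hmemQ x).2 hx, hi⟩, rfl⟩
      show min 1 ((c i)⁻¹ * Metric.infDist (β x) (F0 i)) = 1
      refine min_eq_left ?_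
      have h2 : c i ≤ Metric.infDist (β x) (F0 i) :=
        (Metric.le_infDist (hF0ne i)).2 fun z hz => hcd i _ h1 z hz
      rw [inv_mul_eq_div, one_le_div (hc i)]
      exact h2) y ((hmemQ y).1 hy)
    exact ⟨β x, hβU (mem_range_self x), hxy⟩
  rw [pos_iff_ne_zero]
  intro h0
  have h1 := hφ.hausdorffMeasure_image_le (Nat.cast_nonneg (α := ℝ) n) U
  rw [h0, mul_zero] at h1
  have h2 : (μH[(n : ℝ)] : Measure (Fin n → ℝ)) Q = 0 :=
    le_antisymm ((measure_mono honto).trans h1) bot_le
  have h3 : (μH[(n : ℝ)] : Measure (Fin n → ℝ)) = volume := by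
    have := hausdorffMeasure_pi_real (ι := Fin n)
    rwa [Fintype.card_fin] at this
  rw [h3, hQ, Real.volume_Icc_pi] at h2
  simp at h2

end Haus

section Cov

/-- A local homeomorphism from a compact connected space which has a homotopy section is
injective. -/
theorem injective_of_local {M N : Type*} [TopologicalSpace M] [T2Space M] [CompactSpace M]
    [ConnectedSpace M] [TopologicalSpace N] [T2Space N] (f : C(M, N)) (g : C(N, M))
    (hfg : (f.comp g).Homotopic (ContinuousMap.id N)) (hf : IsLocalHomeomorph f) :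
    Function.Injective f := by
  have cov : IsCoveringMap f := isLocalHomeomorph_iff_isCoveringMap.1 hf
  obtain ⟨H⟩ := hfg
  let Γ := cov.liftHomotopy H.toContinuousMap g (fun a => by
    have := H.apply_zero a
    exact this)
  let s : C(N, M) := Γ.comp ((ContinuousMap.const N (1 : I)).prodMk (ContinuousMap.id N))
  have hs : ∀ y, f (s y) = y := by
    intro y
    have h1 : f (Γ (1, y)) = H (1, y) := congrFun (cov.liftHomotopy_lifts H.toContinuousMap g _) (1, y)
    have h2 : H (1, y) = y := H.apply_one y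
    exact h1.trans h2
  have hopen : IsOpen (range s) := by
    rw [isOpen_iff_mem_nhds]
    rintro _ ⟨y, rfl⟩
    obtain ⟨e, he, hef⟩ := hf (s y)
    have hnb : s ⁻¹' e.source ∈ 𝓝 y := s.continuous.continuousAt.preimage_mem_nhds
      (e.open_source.mem_nhds he)
    have h1 : f ⁻¹' (s ⁻¹' e.source) ∩ e.source ∈ 𝓝 (s y) := by
      refine Filter.inter_mem ?_ (e.open_source.mem_nhds he)
      refine f.continuous.continuousAt.preimage_mem_nhds ?_
      rw [hs y]
      exact hnb
    filter_upwards [h1] with x hx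
    refine ⟨f x, ?_⟩
    have h2 : e (s (f x)) = e x := by
      rw [← hef]
      exact hs (f x)
    exact e.injOn hx.1 hx.2 h2
  have hclosed : IsClosed (range s) := by
    have : range s = {x | s (f x) = x} := by
      ext x
      constructor
      · rintro ⟨y, rfl⟩
        show s (f (s y)) = s y
        rw [hs y]
      · intro hx
        exact ⟨f x, hx⟩
    rw [this]
    exact isClosed_eq (s.continuous.comp f.continuous) continuous_id
  have huniv : range s = univ := by
    rcases isClopen_iff.1 ⟨hclosed, hopen⟩ with h | h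
    · exfalso
      obtain ⟨x⟩ : Nonempty M := inferInstance
      have : s (f x) ∈ range s := mem_range_self _
      rw [h] at this
      exact this
    · exact h
  intro x x' h
  obtain ⟨y, hy⟩ : x ∈ range s := by rw [huniv]; trivial
  obtain ⟨y', hy'⟩ : x' ∈ range s := by rw [huniv]; trivial
  rw [← hy, ← hy', hs, hs] at h
  rw [← hy, ← hy', h]

end Cov

section Meas

variable {n : ℕ} {M N : Type*} [MetricSpace M] [CompactSpace M] [MetricSpace N] [CompactSpace N]
  [ChartedSpace (EuclideanSpace ℝ (Fin n)) N]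

omit [CompactSpace N] in
theorem conn_of_irred (hn : 0 < n) (f : C(M, N)) (hf : DegOne n f)
    (h : ∀ C : Set M, IsClosed C → f '' C = univ → C = univ) (y : N) :
    IsPreconnected (f ⁻¹' {y}) := by
  by_contra hy
  obtain ⟨O, hO, ⟨x, hx⟩, him, -⟩ := split hn f hf hy
  have h1 := h Oᶜ hO.isClosed_compl him
  have h2 : x ∈ Oᶜ := by rw [h1]; trivial
  exact h2 hx

variable [MeasurableSpace M] [BorelSpace M] [MeasurableSpace N]

omit [CompactSpace N] in
theorem conn_of_measure (hn : 0 < n) (f : C(M, N)) (hf : DegOne n f) (μ : Measure M)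
    [IsFiniteMeasure μ] [μ.IsOpenPosMeasure] (ν : Measure N)
    (hK : ∀ K : Set M, IsCompact K → ν (f '' K) ≤ μ K) (htot : μ univ ≤ ν univ) (y : N) :
    IsPreconnected (f ⁻¹' {y}) := by
  by_contra hy
  obtain ⟨O, hO, hne, him, -⟩ := split hn f hf hy
  have h1 : ν univ ≤ μ Oᶜ := by
    rw [← him]
    exact hK _ hO.isClosed_compl.isCompact
  have h2 : μ Oᶜ < μ univ := by
    rw [measure_compl hO.measurableSet (measure_ne_top μ O)]
    have hpos : μ O ≠ 0 := (hO.measure_pos μ hne).ne'
    have huniv : μ univ ≠ 0 := fun h0 => hpos (measure_mono_null (subset_univ O) h0)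
    exact ENNReal.sub_lt_self (measure_ne_top μ univ) huniv hpos
  exact absurd (h1.trans_lt h2) (not_lt.2 htot)

omit [CompactSpace M] [CompactSpace N] [ChartedSpace (EuclideanSpace ℝ (Fin n)) N] in
theorem preimage_le [CompactSpace M] (f : C(M, N)) (hf : Function.Surjective f) (μ : Measure M)
    [IsFiniteMeasure μ] (ν : Measure N)
    (hK : ∀ K : Set M, IsCompact K → ν (f '' K) ≤ μ K) (htot : μ univ ≤ ν univ) {B : Set N}
    (hB : IsOpen B) : μ (f ⁻¹' B) ≤ ν B := by
  have e1 : μ (f ⁻¹' B) + μ (f ⁻¹' B)ᶜ = μ univ :=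
    measure_add_measure_compl (hB.preimage f.continuous).measurableSet
  have e2 : ν Bᶜ ≤ μ (f ⁻¹' B)ᶜ := by
    have h1 : f '' (f ⁻¹' B)ᶜ = Bᶜ := by
      rw [← preimage_compl, image_preimage_eq _ hf]
    rw [← h1]
    exact hK _ (hB.preimage f.continuous).isClosed_compl.isCompact
  have e3 : ν univ ≤ ν B + ν Bᶜ := by
    rw [← union_compl_self B]
    exact measure_union_le _ _
  have e4 : μ (f ⁻¹' B) + μ (f ⁻¹' B)ᶜ ≤ ν B + μ (f ⁻¹' B)ᶜ := by
    rw [e1]
    exact htot.trans (e3.trans (add_le_add le_rfl e2))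
  exact ENNReal.le_of_add_le_add_right (measure_ne_top μ _) e4

omit [CompactSpace M] [CompactSpace N] [ChartedSpace (EuclideanSpace ℝ (Fin n)) N] in
/-- Growth of the measures excludes connected fibres with more than one point. -/
theorem inj_of_growth (f : C(M, N)) {K : ℝ≥0} (hlip : LipschitzWith K f)
    (hconn : ∀ y, IsPreconnected (f ⁻¹' {y})) (μ : Measure M) (ν : Measure N)
    (hpre : ∀ B : Set N, IsOpen B → μ (f ⁻¹' B) ≤ ν B) {c C r₀ s t : ℝ} (hc : 0 < c)
    (hC : 0 < C) (hr₀ : 0 < r₀) (hst : s < t + 1)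
    (hlow : ∀ (x : M) (r : ℝ), 0 < r → r ≤ r₀ → ENNReal.ofReal (c * r ^ s) ≤ μ (ball x r))
    (hup : ∀ (y : N) (r : ℝ), 0 < r → r ≤ r₀ → ν (ball y r) ≤ ENNReal.ofReal (C * r ^ t)) :
    Function.Injective f := by
  intro p q hpq
  by_contra hne
  have hD : 0 < dist p q := dist_pos.2 hne
  set D := dist p q with hDdef
  set K' : ℝ := (K : ℝ) + 1 with hK'
  have hK'0 : 0 < K' := by positivity
  have hK'1 : 1 ≤ K' := by
    rw [hK']
    have : (0 : ℝ) ≤ K := K.2
    linarith
  -- the main estimate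
  have main : ∀ r : ℝ, 0 < r → K' * r ≤ r₀ → D * c / 2 ≤ C * K' ^ t * r ^ (t + 1 - s) := by
    intro r hr hrr
    have hrr0 : r ≤ r₀ := by
      refine le_trans ?_ hrr
      nlinarith
    set m : ℕ := ⌊D / (2 * r)⌋₊ with hm
    have hm1 : (m : ℝ) * (2 * r) ≤ D := by
      have := Nat.floor_le (show 0 ≤ D / (2 * r) by positivity)
      rwa [le_div_iff₀ (by positivity)] at this
    have hm2 : D / (2 * r) ≤ (m : ℝ) + 1 := (Nat.lt_floor_add_one _).le
    have hpt : ∀ j : Fin (m + 1), ∃ x : M, f x = f p ∧ dist p x = 2 * r * (j : ℕ) := by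
      intro j
      have hj : (2 * r * (j : ℕ) : ℝ) ∈ Icc (dist p p) (dist p q) := by
        rw [dist_self]
        refine ⟨by positivity, ?_⟩
        have hjm : ((j : ℕ) : ℝ) ≤ m := by exact_mod_cast Nat.lt_succ_iff.1 j.2
        have : 2 * r * ((j : ℕ) : ℝ) ≤ m * (2 * r) := by nlinarith
        exact this.trans hm1
      obtain ⟨x, hx, hxe⟩ := (hconn (f p)).intermediate_value (f := fun x => dist p x)
        (a := p) (b := q) rfl hpq.symm (by fun_prop) hj
      exact ⟨x, hx, hxe⟩
    choose x hxf hxd using hpt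
    have hdisj : Pairwise (Function.onFun Disjoint fun j => ball (x j) r) := by
      intro i j hij
      show Disjoint (ball (x i) r) (ball (x j) r)
      rw [disjoint_left]
      intro z hz hz'
      rw [mem_ball] at hz hz'
      have e1 : dist (x i) (x j) < 2 * r := by
        have := dist_triangle_left (x i) (x j) z
        linarith
      have e2 : |dist p (x i) - dist p (x j)| ≤ dist (x i) (x j) := by
        have := abs_dist_sub_le (x i) (x j) p
        rwa [dist_comm (x i) p, dist_comm (x j) p] at this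
      rw [hxd, hxd, ← mul_sub, abs_mul, abs_of_pos (by positivity : 0 < 2 * r)] at e2
      have e3 : (1 : ℝ) ≤ |(((i : ℕ) : ℝ) - ((j : ℕ) : ℝ))| := by
        have hne' : ((i : ℕ) : ℤ) - ((j : ℕ) : ℤ) ≠ 0 := by
          intro h
          apply hij
          apply Fin.ext
          omega
        have := Int.one_le_abs hne'
        exact_mod_cast this
      nlinarith
    have hsub : (⋃ j, ball (x j) r) ⊆ f ⁻¹' ball (f p) (K' * r) := by
      intro z hz
      obtain ⟨j, hj⟩ := mem_iUnion.1 hz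
      rw [mem_ball] at hj
      show f z ∈ ball (f p) (K' * r)
      rw [mem_ball, ← hxf j]
      refine (hlip.dist_le_mul z (x j)).trans_lt ?_
      have h1 : (K : ℝ) * dist z (x j) ≤ (K : ℝ) * r := mul_le_mul_of_nonneg_left hj.le K.2
      have h2 : (K : ℝ) * r < K' * r := by
        rw [hK']
        nlinarith
      exact h1.trans_lt h2
    have hsum : ((m + 1 : ℕ) : ℝ≥0∞) * ENNReal.ofReal (c * r ^ s) ≤
        ENNReal.ofReal (C * (K' * r) ^ t) := by
      calc ((m + 1 : ℕ) : ℝ≥0∞) * ENNReal.ofReal (c * r ^ s)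
          = ∑ _j : Fin (m + 1), ENNReal.ofReal (c * r ^ s) := by
            rw [Finset.sum_const, Finset.card_univ, Fintype.card_fin, nsmul_eq_mul]
        _ ≤ ∑ j : Fin (m + 1), μ (ball (x j) r) :=
            Finset.sum_le_sum fun j _ => hlow (x j) r hr hrr0
        _ = μ (⋃ j, ball (x j) r) := by
            rw [measure_iUnion hdisj fun j => measurableSet_ball, tsum_fintype]
        _ ≤ μ (f ⁻¹' ball (f p) (K' * r)) := measure_mono hsub
        _ ≤ ν (ball (f p) (K' * r)) := hpre _ isOpen_ball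
        _ ≤ ENNReal.ofReal (C * (K' * r) ^ t) := hup _ _ (by positivity) hrr
    have hsum' : ((m : ℝ) + 1) * (c * r ^ s) ≤ C * (K' * r) ^ t := by
      rw [← ENNReal.ofReal_natCast, ← ENNReal.ofReal_mul (by positivity),
        ENNReal.ofReal_le_ofReal_iff (by positivity)] at hsum
      push_cast at hsum
      exact hsum
    have hrs : 0 < r ^ s := Real.rpow_pos_of_pos hr s
    have h1 : D / (2 * r) * (c * r ^ s) ≤ C * (K' * r) ^ t :=
      (mul_le_mul_of_nonneg_right hm2 (by positivity)).trans hsum'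
    have h2 : D * c / 2 * r ^ s = D / (2 * r) * (c * r ^ s) * r := by
      field_simp
    have h3 : D * c / 2 * r ^ s ≤ C * K' ^ t * r ^ (t + 1 - s) * r ^ s := by
      rw [h2]
      refine (mul_le_mul_of_nonneg_right h1 hr.le).trans (le_of_eq ?_)
      rw [Real.mul_rpow hK'0.le hr.le, mul_assoc (C * K' ^ t), ← Real.rpow_add hr]
      have : t + 1 - s + s = t + 1 := by ring
      rw [this, Real.rpow_add hr, Real.rpow_one]
      ring
    exact le_of_mul_le_mul_right h3 hrs
  -- the limit
  have hlim : Filter.Tendsto (fun r : ℝ => C * K' ^ t * r ^ (t + 1 - s)) (𝓝[>] 0) (𝓝 0) := by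
    have h1 : Filter.Tendsto (fun r : ℝ => r ^ (t + 1 - s)) (𝓝 0) (𝓝 (0 ^ (t + 1 - s))) :=
      (Real.continuousAt_rpow_const 0 (t + 1 - s) (Or.inr (by linarith))).tendsto
    rw [Real.zero_rpow (by linarith)] at h1
    have h2 : Filter.Tendsto (fun r : ℝ => r ^ (t + 1 - s)) (𝓝[>] 0) (𝓝 0) :=
      h1.mono_left nhdsWithin_le_nhds
    have h4 := h2.const_mul (C * K' ^ t)
    rwa [mul_zero] at h4
  have hev1 : ∀ᶠ r in 𝓝[>] (0 : ℝ), C * K' ^ t * r ^ (t + 1 - s) < D * c / 2 :=
    hlim.eventually (gt_mem_nhds (by positivity))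
  have hev2 : ∀ᶠ r in 𝓝[>] (0 : ℝ), r < r₀ / K' :=
    nhdsWithin_le_nhds (gt_mem_nhds (by positivity))
  obtain ⟨r, h1, h2, h3⟩ := (hev1.and (hev2.and self_mem_nhdsWithin)).exists
  have h3' : 0 < r := h3
  rw [lt_div_iff₀ hK'0] at h2
  exact absurd h1 (not_lt.2 (main r h3' (by rw [mul_comm]; exact h2.le)))

end Meas

end Vale.Agent.P260.R2.H716
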